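import Vale.Agent.P256.Main
import Vale.Agent.P256.Local
import Vale.Agent.P256.Factors
import Vale.Agent.P256.Example

/-!
Hyperbolicity cones whose singular boundary rays are ordinary are spectrahedral shadows.
-/

namespace Vale.Agent.Results.P256.OrdinarySingularShadow

open Vale.Agent.P256

/-- Projected Lax for products of pullbacks of linear forms and of pointed hyperbolic forms whose
singular boundary rays are ordinary; the class has members with a singular boundary ray. -/
theorem result :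
    (∀ (n : ℕ) (p : MvPolynomial (Fin n) ℝ) (e : Fin n → ℝ) (ι : Type) [Fintype ι] (m : ι → ℕ)
      (q : ∀ i, MvPolynomial (Fin (m i)) ℝ) (L : ∀ i, (Fin n → ℝ) →ₗ[ℝ] Fin (m i) → ℝ)
      (d : ι → ℕ),
      (∀ x, MvPolynomial.eval x p = ∏ i, MvPolynomial.eval (L i x) (q i)) →
      (∀ i, (q i).IsHomogeneous (d i)) →
      (∀ i, IsHyperbolicPoly (q i) (L i e)) →
      (∀ i, m i = 1 ∨ 3 ≤ m i ∧
        (∀ x ∈ hypCone (q i) (L i e), -x ∈ hypCone (q i) (L i e) → x = 0) ∧
        ∀ a ∈ hypCone (q i) (L i e), a ≠ 0 →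
          (∀ j, MvPolynomial.eval a (MvPolynomial.pderiv j (q i)) = 0) →
            IsOrdinarySingular (q i) (L i e) a) →
      IsSpectrahedralShadow (hypCone p e)) ∧
    ∃ (p : MvPolynomial (Fin 4) ℝ) (e : Fin 4 → ℝ), p.IsHomogeneous 3 ∧ IsHyperbolicPoly p e ∧
      (∀ x ∈ hypCone p e, -x ∈ hypCone p e → x = 0) ∧
      (∀ a ∈ hypCone p e, a ≠ 0 → (∀ j, MvPolynomial.eval a (MvPolynomial.pderiv j p) = 0) →
        IsOrdinarySingular p e a) ∧
      ∃ a ∈ hypCone p e, a ≠ 0 ∧ ∀ j, MvPolynomial.eval a (MvPolynomial.pderiv j p) = 0 := by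
  refine ⟨?_, nodal, nodalDir, nodal_hom, nodal_setting.base.hyp, nodal_setting.pointed,
    nodal_setting.ordinary, ![1, 0, 0, 0], nodal_singular.1, ?_, nodal_singular.2⟩
  · intro n p e ι _ m q L d hp hhom hhyp hclass
    refine isShadow_of_class ?_ e m q L d hp (fun i => ⟨hhom i, hhyp i⟩) hclass
    intro k q' f d' S hk
    exact S.isShadow hk (fun a' ha' a ha => S.local_kernel ha' ha)
      (fun a ha hg => S.isolated_singular ha hg)
  · intro h
    simpa using congrFun h 0

end Vale.Agent.Results.P256.OrdinarySingularShadow
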